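import Vale.Agent.Lib.PolyTM.Machine

/-!
# The algebra of functions computable in polynomial time on unary numbers
-/

namespace PolyTM

open Function Finset

variable {A : Type}

/-- `f` is computed in polynomial time by a program: for all input registers `a j`, every output
register `o` and every `b` above them, there is a program which, if all registers `≥ b` are zero,
adds `f (inputs)` to the register `o` and changes nothing else. -/
def Comp (A : Type) {k : ℕ} (f : (Fin k → ℕ) → ℕ) : Prop :=
  ∃ p : Polynomial ℕ, ∀ (a : Fin k → ℕ) (o b : ℕ), (∀ j, a j < b) → o < b → (∀ j, a j ≠ o) →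
    ∃ P : Prog A, ∀ (c : ℕ → ℕ) (l : List A), (∀ r, b ≤ r → c r = 0) →
      ∃ t ≤ p.eval (∑ j, c (a j)),
        Big P c l (update c o (c o + f (fun j => c (a j)))) l t

lemma eval_mono (p : Polynomial ℕ) {x y : ℕ} (h : x ≤ y) : p.eval x ≤ p.eval y := by
  rw [Polynomial.eval_eq_sum_range, Polynomial.eval_eq_sum_range]
  exact Finset.sum_le_sum fun i _ => Nat.mul_le_mul_left _ (Nat.pow_le_pow_left h i)

/-! ### Basic programs -/

lemma big_loop {i : ℕ} {P : Prog A} (S : ℕ → ℕ → ℕ) (O : ℕ → List A) (T : ℕ → ℕ)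
    (hS : ∀ m, S m i = m) (n : ℕ)
    (hP : ∀ m < n, Big P (update (S (m + 1)) i m) (O (m + 1)) (S m) (O m) (T m)) :
    Big (.loop i P) (S n) (O n) (S 0) (O 0) (∑ m ∈ range n, (T m + 2) + 1) := by
  induction n with
  | zero => simpa using Big.loop_zero (P := P) (o := O 0) (hS 0)
  | succ n ih =>
    have h1 := ih fun m hm => hP m (by omega)
    have h2 := hP n (by omega)
    have h3 : Big (.loop i P) (S (n + 1)) (O (n + 1)) (S 0) (O 0)
        (T n + (∑ m ∈ range n, (T m + 2) + 1) + 2) := by
      refine Big.loop_succ (by rw [hS]; omega) ?_ h1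
      rw [hS, Nat.add_sub_cancel]
      exact h2
    rw [sum_range_succ]
    have e : T n + (∑ m ∈ range n, (T m + 2) + 1) + 2 =
        ∑ m ∈ range n, (T m + 2) + (T n + 2) + 1 := by ring
    rwa [e] at h3

/-- iterated sequence -/
def seqN : ℕ → (ℕ → Prog A) → Prog A
  | 0, _ => .skip
  | n + 1, Q => .seq (seqN n Q) (Q n)

lemma big_seqN {Q : ℕ → Prog A} (S : ℕ → ℕ → ℕ) (O : ℕ → List A) (T : ℕ → ℕ) (n : ℕ)
    (hQ : ∀ m < n, Big (Q m) (S m) (O m) (S (m + 1)) (O (m + 1)) (T m)) :
    Big (seqN n Q) (S 0) (O 0) (S n) (O n) (∑ m ∈ range n, T m) := by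
  induction n with
  | zero => exact Big.skip _ _
  | succ n ih =>
    rw [sum_range_succ]
    exact Big.seq (ih fun m hm => hQ m (by omega)) (hQ n (by omega))

lemma big_clear (i : ℕ) (c : ℕ → ℕ) (l : List A) :
    Big (.loop i .skip) c l (update c i 0) l (2 * c i + 1) := by
  have h := big_loop (P := (.skip : Prog A)) (i := i) (fun m => update c i m) (fun _ => l)
    (fun _ => 0) (fun m => update_self _ _ _) (c i) (fun m _ => by
      rw [update_idem]
      exact Big.skip _ _)
  simp only [update_eq_self, sum_const, card_range, smul_eq_mul] at h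
  convert h using 1
  ring

lemma big_move {i o : ℕ} (hio : i ≠ o) (c : ℕ → ℕ) (l : List A) :
    Big (.loop i (.inc o)) c l (update (update c i 0) o (c o + c i)) l (3 * c i + 1) := by
  have h := big_loop (P := (.inc o : Prog A)) (i := i)
    (fun m => update (update c i m) o (c o + (c i - m))) (fun _ => l)
    (fun _ => 1) (fun m => by rw [update_of_ne hio, update_self]) (c i) (fun m hm => by
      have e : update (update c i m) o (c o + (c i - m)) =
          update (update (update (update c i (m + 1)) o (c o + (c i - (m + 1)))) i m) o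
            (update (update (update c i (m + 1)) o (c o + (c i - (m + 1)))) i m o + 1) := by
        funext r
        simp only [update_apply]
        split_ifs <;> omega
      rw [e]
      exact Big.inc _ _ _)
  simp only [Nat.sub_self, add_zero, sum_const, card_range, smul_eq_mul, Nat.sub_zero] at h
  have e : update (update c i (c i)) o (c o) = c := by
    rw [update_eq_self, update_eq_self]
  rw [e] at h
  convert h using 1
  ring

lemma big_copy {i o k : ℕ} (hio : i ≠ o) (hik : i ≠ k) (hok : o ≠ k) (c : ℕ → ℕ) (l : List A)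
    (hk : c k = 0) :
    Big (.seq (.loop i (.seq (.inc o) (.inc k))) (.loop k (.inc i))) c l
      (update c o (c o + c i)) l (7 * c i + 2) := by
  have h := big_loop (P := (.seq (.inc o) (.inc k) : Prog A)) (i := i)
    (fun m => update (update (update c i m) o (c o + (c i - m))) k (c i - m)) (fun _ => l)
    (fun _ => 1 + 1) (fun m => by rw [update_of_ne hik, update_of_ne hio, update_self]) (c i)
    (fun m hm => by
      refine Big.seq (Big.inc _ _ _) ?_
      have e : update (update (update c i m) o (c o + (c i - m))) k (c i - m) =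
          update (update (update (update (update (update c i (m + 1)) o (c o + (c i - (m + 1)))) k
            (c i - (m + 1))) i m) o ((update (update (update (update c i (m + 1)) o
            (c o + (c i - (m + 1)))) k (c i - (m + 1))) i m) o + 1)) k
            ((update (update (update (update (update c i (m + 1)) o (c o + (c i - (m + 1)))) k
            (c i - (m + 1))) i m) o ((update (update (update (update c i (m + 1)) o
            (c o + (c i - (m + 1)))) k (c i - (m + 1))) i m) o + 1)) k + 1) := by
        funext r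
        simp only [update_apply]
        split_ifs <;> omega
      rw [e]
      exact Big.inc _ _ _)
  have h2 := big_move (A := A) (i := k) (o := i) (Ne.symm hik)
    (update (update (update c i 0) o (c o + (c i - 0))) k (c i - 0)) l
  have e0 : update (update (update c i (c i)) o (c o + (c i - c i))) k (c i - c i) = c := by
    funext r
    simp only [update_apply]
    split_ifs with h1 h2 h3
    · rw [h1, hk]; omega
    · rw [h2]; omega
    · rw [h3]
    · rfl
  simp only [e0] at h
  have h3 := Big.seq h h2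
  convert h3 using 1
  · funext r
    by_cases q1 : r = k
    · subst q1
      simp only [update_apply, if_neg (Ne.symm hok), if_neg (Ne.symm hik), if_true]
      exact hk
    · by_cases q2 : r = i
      · subst q2
        simp only [update_apply, if_neg hio, if_neg hik, if_true]
        omega
      · by_cases q3 : r = o
        · subst q3
          simp only [update_apply, if_neg q1, if_neg q2, if_true]
          omega
        · simp only [update_apply, if_neg q1, if_neg q2, if_neg q3]
  · simp only [sum_const, card_range, smul_eq_mul, update_self]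
    omega

lemma big_incs (o n : ℕ) (c : ℕ → ℕ) (l : List A) :
    Big (seqN n fun _ => (.inc o : Prog A)) c l (update c o (c o + n)) l n := by
  have h := big_seqN (A := A) (Q := fun _ => .inc o) (fun m => update c o (c o + m)) (fun _ => l)
    (fun _ => 1) n (fun m _ => by
      have e : update c o (c o + (m + 1)) =
          update (update c o (c o + m)) o ((update c o (c o + m)) o + 1) := by
        funext r
        simp only [update_apply]
        split_ifs <;> omega
      rw [e]
      exact Big.inc _ _ _)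
  simpa using h

lemma Big.le {P : Prog A} {c c' : ℕ → ℕ} {o o' : List A} {t : ℕ} (h : Big P c o c' o' t) (r : ℕ) :
    c' r ≤ c r + t := by
  induction h with
  | skip => simp
  | inc i c o =>
    simp only [update_apply]
    split_ifs with h
    · rw [h]
    · omega
  | out => simp
  | seq _ _ h1 h2 => omega
  | loop_zero => simp
  | @loop_succ i P c o c' o' c'' o'' t t' hc hP hQ h1 h2 =>
    have h3 : update c i (c i - 1) r ≤ c r := by
      simp only [update_apply]
      split_ifs with h
      · rw [h]; omega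
      · exact le_rfl
    omega

/-! ### Closure properties -/

theorem Comp.const {k : ℕ} (n : ℕ) : Comp A (fun _ : Fin k → ℕ => n) := by
  refine ⟨Polynomial.C n, fun a o b _ _ _ => ⟨seqN n fun _ => .inc o, fun c l _ => ⟨n, ?_, ?_⟩⟩⟩
  · simp
  · exact big_incs o n c l

theorem Comp.proj {k : ℕ} (j : Fin k) : Comp A (fun x : Fin k → ℕ => x j) := by
  refine ⟨7 * Polynomial.X + 2, fun a o b ha ho hao =>
    ⟨.seq (.loop (a j) (.seq (.inc o) (.inc b))) (.loop b (.inc (a j))), fun c l hc =>
      ⟨7 * c (a j) + 2, ?_, ?_⟩⟩⟩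
  · simp only [Polynomial.eval_add, Polynomial.eval_mul, Polynomial.eval_ofNat, Polynomial.eval_X]
    have : c (a j) ≤ ∑ j, c (a j) := Finset.single_le_sum (f := fun j => c (a j))
      (fun _ _ => Nat.zero_le _) (Finset.mem_univ j)
    omega
  · exact big_copy (hao j) (by have := ha j; omega) (by omega) c l (hc b le_rfl)

theorem Comp.add {k : ℕ} {f g : (Fin k → ℕ) → ℕ} (hf : Comp A f) (hg : Comp A g) :
    Comp A (fun x => f x + g x) := by
  obtain ⟨p, hp⟩ := hf
  obtain ⟨q, hq⟩ := hg
  refine ⟨p + q, fun a o b ha ho hao => ?_⟩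
  obtain ⟨P, hP⟩ := hp a o b ha ho hao
  obtain ⟨Q, hQ⟩ := hq a o b ha ho hao
  refine ⟨.seq P Q, fun c l hc => ?_⟩
  obtain ⟨t, ht, hB⟩ := hP c l hc
  set c' := update c o (c o + f (fun j => c (a j))) with hc'
  have hca : ∀ j, c' (a j) = c (a j) := fun j => by rw [hc', update_of_ne (hao j)]
  obtain ⟨t', ht', hB'⟩ := hQ c' l (fun r hr => by
    rw [hc', update_of_ne (by omega)]; exact hc r hr)
  simp only [hca] at ht' hB'
  refine ⟨t + t', ?_, ?_⟩
  · rw [Polynomial.eval_add]; omega
  · have h := Big.seq hB hB'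
    have e : update c' o (c' o + g fun j => c (a j)) =
        update c o (c o + (f (fun j => c (a j)) + g (fun j => c (a j)))) := by
      rw [hc', update_self, update_idem, add_assoc]
    rw [e] at h
    exact h

/-- the values are polynomially bounded -/
theorem Comp.bound {k : ℕ} {f : (Fin k → ℕ) → ℕ} (hf : Comp A f) :
    ∃ q : Polynomial ℕ, ∀ x, f x ≤ q.eval (∑ j, x j) := by
  obtain ⟨p, hp⟩ := hf
  refine ⟨p, fun x => ?_⟩
  obtain ⟨P, hP⟩ := hp (fun j => j.1) k (k + 1) (fun j => by omega) (by omega) (fun j => by omega)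
  obtain ⟨t, ht, hB⟩ := hP (fun r => if h : r < k then x ⟨r, h⟩ else 0) []
    (fun r hr => dif_neg (by omega))
  have h1 := hB.le k
  simp only [update_self, Fin.is_lt, dif_pos, lt_irrefl, dif_neg, not_false_eq_true, zero_add,
    Fin.eta] at h1 ht
  exact h1.trans ht

theorem Comp.comp {k m : ℕ} {f : (Fin m → ℕ) → ℕ} (hf : Comp A f)
    {g : Fin m → (Fin k → ℕ) → ℕ} (hg : ∀ i, Comp A (g i)) :
    Comp A (fun x => f (fun i => g i x)) := by
  obtain ⟨p, hp⟩ := hf
  choose q hq using hg
  refine ⟨(∑ i, q i) + (p.comp (∑ i, q i) + (2 * (∑ i, q i) + Polynomial.C m)),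
    fun a o b ha ho hao => ?_⟩
  have hex : ∀ i : Fin m, ∃ P : Prog A, ∀ (c : ℕ → ℕ) (l : List A), (∀ r, b + m ≤ r → c r = 0) →
      ∃ t ≤ (q i).eval (∑ j, c (a j)),
        Big P c l (update c (b + i) (c (b + i) + g i (fun j => c (a j)))) l t := fun i =>
    hq i a (b + i) (b + m) (fun j => by have := ha j; omega) (by omega)
      (fun j => by have := ha j; omega)
  choose Q hQ using hex
  obtain ⟨P, hP⟩ := hp (fun i => b + i) o (b + m) (fun i => by omega) (by omega)
    (fun i => by omega)
  refine ⟨.seq (seqN m fun i => if h : i < m then Q ⟨i, h⟩ else .skip)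
    (.seq P (seqN m fun i => .loop (b + i) .skip)), fun c l hc => ?_⟩
  set G : Fin m → ℕ := fun i => g i (fun j => c (a j)) with hG
  -- the states of the first phase
  let S : ℕ → ℕ → ℕ := fun n r => if h : b ≤ r ∧ r < b + n ∧ r < b + m then G ⟨r - b, by omega⟩ else c r
  have hSa : ∀ n j, S n (a j) = c (a j) := by
    intro n j
    have := ha j
    simp only [S]
    rw [dif_neg (by omega)]
  have hS0 : S 0 = c := by
    funext r
    simp only [S]
    rw [dif_neg (by omega)]
  have hphase1 : ∀ n : ℕ, n < m → ∃ t, ∃ hn : n < m, t ≤ (q ⟨n, hn⟩).eval (∑ j, c (a j)) ∧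
      Big (if h : n < m then Q ⟨n, h⟩ else .skip) (S n) l (S (n + 1)) l t := by
    intro n hn
    obtain ⟨t, ht, hB⟩ := hQ ⟨n, hn⟩ (S n) l (fun r hr => by
      simp only [S]; rw [dif_neg (by omega)]; exact hc r (by omega))
    simp only [hSa] at ht hB
    refine ⟨t, hn, ht, ?_⟩
    rw [dif_pos hn]
    have e : S (n + 1) = update (S n) (b + n) (S n (b + n) + g ⟨n, hn⟩ fun j => c (a j)) := by
      funext r
      simp only [update_apply]
      split_ifs with h
      · subst h
        simp only [S]
        rw [dif_pos (by omega), dif_neg (by omega), hc _ (by omega), zero_add]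
        simp [hG]
      · simp only [S]
        by_cases h2 : b ≤ r ∧ r < b + n ∧ r < b + m
        · rw [dif_pos (by omega), dif_pos h2]
        · rw [dif_neg (by omega), dif_neg h2]
    rw [e]
    exact hB
  have hphase1' : ∀ n : ℕ, ∃ t, ∀ hn : n < m, t ≤ (q ⟨n, hn⟩).eval (∑ j, c (a j)) ∧
      Big (if h : n < m then Q ⟨n, h⟩ else .skip) (S n) l (S (n + 1)) l t := by
    intro n
    by_cases hn : n < m
    · obtain ⟨t, _, h1, h2⟩ := hphase1 n hn
      exact ⟨t, fun _ => ⟨h1, h2⟩⟩
    · exact ⟨0, fun h => absurd h hn⟩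
  choose T hT using hphase1'
  have hb1 := big_seqN (Q := fun i => if h : i < m then Q ⟨i, h⟩ else .skip) S (fun _ => l) T m
    (fun n hn => (hT n hn).2)
  -- second phase
  have hSb : ∀ i : Fin m, S m (b + i) = G i := by
    intro i
    simp only [S]
    rw [dif_pos (by omega)]
    congr 1
    exact Fin.ext (by simp)
  have hSo : S m o = c o := by
    simp only [S]
    rw [dif_neg (by omega)]
  obtain ⟨t2, ht2, hB2⟩ := hP (S m) l (fun r hr => by
      simp only [S]; rw [dif_neg (by omega)]; exact hc r (by omega))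
  simp only [hSb, hSo] at ht2 hB2
  -- third phase
  let R : ℕ → ℕ → ℕ := fun n r => if b ≤ r ∧ r < b + n then 0 else
    update (S m) o (c o + f G) r
  have hb3 := big_seqN (A := A) (Q := fun i => .loop (b + i) .skip) R (fun _ => l)
    (fun n => 2 * R n (b + n) + 1) m (fun n hn => by
      have h := big_clear (A := A) (b + n) (R n) l
      have e : R (n + 1) = update (R n) (b + n) 0 := by
        funext r
        simp only [R, update_apply]
        split_ifs <;> first | rfl | omega
      rw [e]
      exact h)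
  have hR0 : R 0 = update (S m) o (c o + f G) := by
    funext r
    simp only [R]
    rw [if_neg (by omega)]
  rw [hR0] at hb3
  have hall := Big.seq hb1 (Big.seq hB2 hb3)
  rw [hS0] at hall
  have hRm : R m = update c o (c o + f G) := by
    funext r
    simp only [R, S, update_apply]
    split_ifs with h1 h2 h3 h4
    · omega
    · exact (hc r (by omega)).symm
    · rfl
    · omega
    · rfl
  rw [hRm] at hall
  refine ⟨_, ?_, hall⟩
  -- the time bound
  have e1 : ∑ n ∈ range m, T n ≤ (∑ i, q i).eval (∑ j, c (a j)) := by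
    rw [Polynomial.eval_finsetSum, ← Fin.sum_univ_eq_sum_range]
    exact Finset.sum_le_sum fun i _ => (hT i.1 i.2).1
  have e2 : ∀ i : Fin m, G i ≤ (q i).eval (∑ j, c (a j)) := by
    intro i
    obtain ⟨t, ht, hB⟩ := hQ i c l (fun r hr => hc r (by omega))
    have := hB.le (b + i)
    rw [update_self, hc (b + i) (by omega)] at this
    simp only [zero_add] at this
    exact this.trans ht
  have e3 : ∑ i, G i ≤ (∑ i, q i).eval (∑ j, c (a j)) := by
    rw [Polynomial.eval_finsetSum]
    exact Finset.sum_le_sum fun i _ => e2 i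
  have e4 : t2 ≤ (p.comp (∑ i, q i)).eval (∑ j, c (a j)) := by
    rw [Polynomial.eval_comp]
    exact ht2.trans (eval_mono p e3)
  have e5 : ∑ n ∈ range m, (2 * R n (b + n) + 1) ≤ 2 * (∑ i, q i).eval (∑ j, c (a j)) + m := by
    have h1 : ∀ i : Fin m, R i.1 (b + i) = G i := by
      intro i
      simp only [R]
      rw [if_neg (by omega), update_of_ne (by omega), hSb]
    rw [← Fin.sum_univ_eq_sum_range (fun n => 2 * R n (b + n) + 1) m]
    simp only [h1]
    rw [Finset.sum_add_distrib, ← Finset.mul_sum]
    simp only [sum_const, card_univ, Fintype.card_fin, smul_eq_mul, mul_one]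
    omega
  simp only [Polynomial.eval_add, Polynomial.eval_mul, Polynomial.eval_ofNat, Polynomial.eval_C]
  omega

/-- the state with four working registers -/
def st4 (c : ℕ → ℕ) (b x m v w : ℕ) : ℕ → ℕ := fun r =>
  if r = b then x else if r = b + 1 then m else if r = b + 2 then v else
    if r = b + 3 then w else c r

section st4
variable (c : ℕ → ℕ) (b x m v w y : ℕ)

lemma st4_0 : st4 c b x m v w b = x := by simp [st4]
lemma st4_1 : st4 c b x m v w (b + 1) = m := by simp [st4]
lemma st4_2 : st4 c b x m v w (b + 2) = v := by simp [st4]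
lemma st4_3 : st4 c b x m v w (b + 3) = w := by simp [st4]

lemma st4_lt {r : ℕ} (hr : r < b) : st4 c b x m v w r = c r := by
  simp only [st4]
  rw [if_neg (by omega), if_neg (by omega), if_neg (by omega), if_neg (by omega)]

lemma st4_ge {r : ℕ} (hr : b + 4 ≤ r) : st4 c b x m v w r = c r := by
  simp only [st4]
  rw [if_neg (by omega), if_neg (by omega), if_neg (by omega), if_neg (by omega)]

lemma upd4_0 : update (st4 c b x m v w) b y = st4 c b y m v w := by
  funext r
  simp only [st4, update_apply]
  split_ifs <;> rfl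

lemma upd4_1 : update (st4 c b x m v w) (b + 1) y = st4 c b x y v w := by
  funext r
  simp only [st4, update_apply]
  split_ifs <;> first | rfl | omega

lemma upd4_2 : update (st4 c b x m v w) (b + 2) y = st4 c b x m y w := by
  funext r
  simp only [st4, update_apply]
  split_ifs <;> first | rfl | omega

lemma upd4_3 : update (st4 c b x m v w) (b + 3) y = st4 c b x m v y := by
  funext r
  simp only [st4, update_apply]
  split_ifs <;> first | rfl | omega

lemma st4_self (hc : ∀ r, b ≤ r → c r = 0) : st4 c b 0 0 0 0 = c := by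
  funext r
  simp only [st4]
  split_ifs with h1 h2 h3 h4
  · exact (hc r (by omega)).symm
  · exact (hc r (by omega)).symm
  · exact (hc r (by omega)).symm
  · exact (hc r (by omega)).symm
  · rfl

lemma upd4_lt {o : ℕ} (ho : o < b) :
    update (st4 c b x m v w) o y = st4 (update c o y) b x m v w := by
  funext r
  simp only [st4, update_apply]
  split_ifs <;> first | rfl | omega

end st4

/-- bounded primitive recursion on the argument `0` -/
theorem Comp.primrec {k : ℕ} {F : ℕ → (Fin k → ℕ) → ℕ} {g : (Fin k → ℕ) → ℕ}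
    {h : (Fin (k + 2) → ℕ) → ℕ} (hg : Comp A g) (hh : Comp A h)
    (h0 : ∀ x, F 0 x = g x)
    (hs : ∀ m x, F (m + 1) x = h (Fin.cons m (Fin.cons (F m x) x)))
    (q : Polynomial ℕ) (hq : ∀ m x, F m x ≤ q.eval (m + ∑ j, x j)) :
    Comp A (fun x : Fin (k + 1) → ℕ => F (x 0) (Fin.tail x)) := by
  obtain ⟨pg, hpg⟩ := hg
  obtain ⟨ph, hph⟩ := hh
  refine ⟨(7 * Polynomial.X + 2) + (pg + ((Polynomial.X *
      (ph.comp (Polynomial.X + q) + 5 * q + 5) + 1) +
      ((3 * q + 1) + (2 * Polynomial.X + 1)))), fun a o b ha ho hao => ?_⟩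
  obtain ⟨G, hG⟩ := hpg (fun j => a j.succ) (b + 2) (b + 4) (fun j => by have := ha j.succ; omega)
    (by omega) (fun j => by have := ha j.succ; omega)
  obtain ⟨H, hH⟩ := hph (Fin.cons (b + 1) (Fin.cons (b + 2) (fun j : Fin k => a j.succ)))
    (b + 3) (b + 4)
    (fun j => by
      refine Fin.cases ?_ (fun j => ?_) j
      · rw [Fin.cons_zero]; omega
      · rw [Fin.cons_succ]
        refine Fin.cases ?_ (fun j => ?_) j
        · rw [Fin.cons_zero]; omega
        · rw [Fin.cons_succ]; have := ha j.succ; omega)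
    (by omega)
    (fun j => by
      refine Fin.cases ?_ (fun j => ?_) j
      · rw [Fin.cons_zero]; omega
      · rw [Fin.cons_succ]
        refine Fin.cases ?_ (fun j => ?_) j
        · rw [Fin.cons_zero]; omega
        · rw [Fin.cons_succ]; have := ha j.succ; omega)
  refine ⟨.seq (.seq (.loop (a 0) (.seq (.inc b) (.inc (b + 1)))) (.loop (b + 1) (.inc (a 0))))
    (.seq G (.seq
      (.loop b (.seq H (.seq (.loop (b + 2) .skip) (.seq (.loop (b + 3) (.inc (b + 2)))
        (.inc (b + 1))))))
      (.seq (.loop (b + 2) (.inc o)) (.loop (b + 1) .skip)))), fun c l hc => ?_⟩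
  set n := c (a 0) with hn
  set x : Fin k → ℕ := fun j => c (a j.succ) with hx
  have hN : ∑ j, c (a j) = n + ∑ j, x j := by rw [Fin.sum_univ_succ]
  have htail : (Fin.tail fun j => c (a j)) = x := rfl
  rw [hN]
  simp only [htail]
  -- step 1
  have b1 := big_copy (A := A) (i := a 0) (o := b) (k := b + 1)
    (by have := ha 0; omega) (by have := ha 0; omega) (by omega) c l (hc _ (by omega))
  have e1 : update c b (c b + c (a 0)) = st4 c b n 0 0 0 := by
    rw [hc b le_rfl, zero_add, ← upd4_0 c b 0 0 0 0 n, st4_self c b hc]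
  rw [e1, ← hn] at b1
  -- step 2
  obtain ⟨t2, ht2, b2⟩ := hG (st4 c b n 0 0 0) l (fun r hr => by
    rw [st4_ge c b _ _ _ _ hr]; exact hc r (by omega))
  have e2 : (fun j => st4 c b n 0 0 0 (a (Fin.succ j))) = x := by
    funext j
    rw [st4_lt c b _ _ _ _ (ha j.succ)]
  have e2' : ∀ j, st4 c b n 0 0 0 (a (Fin.succ j)) = x j := fun j => congrFun e2 j
  simp only [e2'] at ht2
  rw [e2, st4_2, upd4_2, zero_add, ← h0 x] at b2
  -- step 3
  have hbody : ∀ m : ℕ, ∃ t, m < n → t ≤ (ph.comp (Polynomial.X + q) + 5 * q + 3).eval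
      (n + ∑ j, x j) ∧
      Big (.seq H (.seq (.loop (b + 2) .skip) (.seq (.loop (b + 3) (.inc (b + 2)))
        (.inc (b + 1))))) (update (st4 c b (m + 1) (n - (m + 1)) (F (n - (m + 1)) x) 0) b m) l
        (st4 c b m (n - m) (F (n - m) x) 0) l t := by
    intro m
    by_cases hm : m < n
    swap
    · exact ⟨0, fun h => absurd h hm⟩
    obtain ⟨j, hj⟩ : ∃ j, j = n - (m + 1) := ⟨_, rfl⟩
    have hj' : n - m = j + 1 := by omega
    rw [← hj, hj', upd4_0]
    obtain ⟨t, ht, hb⟩ := hH (st4 c b m j (F j x) 0) l (fun r hr => by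
      rw [st4_ge c b _ _ _ _ hr]; exact hc r (by omega))
    have e3 : (fun i => st4 c b m j (F j x) 0 ((Fin.cons (b + 1)
        (Fin.cons (b + 2) (fun j : Fin k => a j.succ)) : Fin (k + 2) → ℕ) i)) =
        Fin.cons j (Fin.cons (F j x) x) := by
      funext i
      refine Fin.cases ?_ (fun i => ?_) i
      · rw [Fin.cons_zero, Fin.cons_zero, st4_1]
      · rw [Fin.cons_succ, Fin.cons_succ]
        refine Fin.cases ?_ (fun i => ?_) i
        · rw [Fin.cons_zero, Fin.cons_zero, st4_2]
        · rw [Fin.cons_succ, Fin.cons_succ, st4_lt c b _ _ _ _ (ha i.succ)]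
    have e4 : ∑ i, st4 c b m j (F j x) 0 ((Fin.cons (b + 1)
        (Fin.cons (b + 2) (fun j : Fin k => a j.succ)) : Fin (k + 2) → ℕ) i) =
        j + (F j x + ∑ i, x i) := by
      have := congrArg (fun f : Fin (k + 2) → ℕ => ∑ i, f i) e3
      rw [this, Fin.sum_univ_succ, Fin.cons_zero]
      simp only [Fin.cons_succ]
      rw [Fin.sum_univ_succ, Fin.cons_zero]
      simp only [Fin.cons_succ]
    rw [e4] at ht
    rw [e3, ← hs, st4_3, upd4_3, zero_add] at hb
    have hb2 := big_clear (A := A) (b + 2) (st4 c b m j (F j x) (F (j + 1) x)) l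
    rw [upd4_2, st4_2] at hb2
    have hb3 := big_move (A := A) (i := b + 3) (o := b + 2) (by omega)
      (st4 c b m j 0 (F (j + 1) x)) l
    rw [st4_2, st4_3, upd4_3, upd4_2, zero_add] at hb3
    have hb4 := Big.inc (A := A) (b + 1) (st4 c b m j (F (j + 1) x) 0) l
    rw [upd4_1, st4_1] at hb4
    refine ⟨_, fun _ => ⟨?_, Big.seq hb (Big.seq hb2 (Big.seq hb3 hb4))⟩⟩
    simp only [Polynomial.eval_add, Polynomial.eval_mul, Polynomial.eval_ofNat,
      Polynomial.eval_comp, Polynomial.eval_X]
    have q1 : F j x ≤ q.eval (n + ∑ j, x j) := (hq j x).trans (eval_mono q (by omega))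
    have q2 : F (j + 1) x ≤ q.eval (n + ∑ j, x j) := (hq (j + 1) x).trans (eval_mono q (by omega))
    have q3 : ph.eval (j + (F j x + ∑ i, x i)) ≤
        ph.eval (n + ∑ i, x i + q.eval (n + ∑ i, x i)) := eval_mono ph (by omega)
    omega
  choose T hT using hbody
  have b3 := big_loop (i := b) (P := .seq H (.seq (.loop (b + 2) .skip)
      (.seq (.loop (b + 3) (.inc (b + 2))) (.inc (b + 1)))))
    (fun m => st4 c b m (n - m) (F (n - m) x) 0) (fun _ => l) T (fun m => st4_0 _ _ _ _ _ _) n
    (fun m hm => (hT m hm).2)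
  simp only [Nat.sub_self, Nat.sub_zero] at b3
  -- step 4
  have b4 := big_move (A := A) (i := b + 2) (o := o) (by omega) (st4 c b 0 n (F n x) 0) l
  rw [upd4_2, st4_2, st4_lt c b _ _ _ _ ho, upd4_lt c b _ _ _ _ _ ho] at b4
  -- step 5
  have b5 := big_clear (A := A) (b + 1) (st4 (update c o (c o + F n x)) b 0 n 0 0) l
  rw [upd4_1, st4_1, st4_self _ b (fun r hr => by rw [update_of_ne (by omega)]; exact hc r hr)]
    at b5
  refine ⟨_, ?_, Big.seq b1 (Big.seq b2 (Big.seq b3 (Big.seq b4 b5)))⟩
  have s1 : ∑ m ∈ range n, (T m + 2) ≤ (n + ∑ j, x j) *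
      ((ph.comp (Polynomial.X + q) + 5 * q + 3).eval (n + ∑ j, x j) + 2) := by
    calc ∑ m ∈ range n, (T m + 2)
        ≤ ∑ m ∈ range n, ((ph.comp (Polynomial.X + q) + 5 * q + 3).eval (n + ∑ j, x j) + 2) := by
          refine Finset.sum_le_sum fun m hm => ?_
          have := (hT m (Finset.mem_range.1 hm)).1
          omega
      _ = n * ((ph.comp (Polynomial.X + q) + 5 * q + 3).eval (n + ∑ j, x j) + 2) := by
          rw [sum_const, card_range, smul_eq_mul]
      _ ≤ _ := Nat.mul_le_mul_right _ (by omega)
  have s2 : F n x ≤ q.eval (n + ∑ j, x j) := hq n x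
  have s3 : pg.eval (∑ j, x j) ≤ pg.eval (n + ∑ j, x j) := eval_mono pg (by omega)
  have s4 : (n + ∑ j, x j) * ((ph.comp (Polynomial.X + q) + 5 * q + 3).eval (n + ∑ j, x j) + 2) =
      (Polynomial.X * (ph.comp (Polynomial.X + q) + 5 * q + 5)).eval (n + ∑ j, x j) := by
    simp only [Polynomial.eval_add, Polynomial.eval_mul, Polynomial.eval_ofNat,
      Polynomial.eval_X]
    ring
  rw [s4] at s1
  simp only [Polynomial.eval_add, Polynomial.eval_mul (p := 7), Polynomial.eval_mul (p := 3),
    Polynomial.eval_mul (p := 2), Polynomial.eval_ofNat, Polynomial.eval_X,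
    Polynomial.eval_one] at s1 ⊢
  omega

end PolyTM
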