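import Vale.Agent.Lib.PolyTM.Algebra

/-!
# Arithmetic functions computable in polynomial time on unary numbers
-/

namespace PolyTM

open Function Polynomial

variable {A : Type} {k : ℕ}

theorem Comp.comp1 {f : ℕ → ℕ} (hf : Comp A (fun x : Fin 1 → ℕ => f (x 0)))
    {g : (Fin k → ℕ) → ℕ} (hg : Comp A g) : Comp A (fun x => f (g x)) :=
  Comp.comp (f := fun x : Fin 1 → ℕ => f (x 0)) hf (g := fun _ => g) (fun _ => hg)

theorem Comp.comp2 {f : ℕ → ℕ → ℕ} (hf : Comp A (fun x : Fin 2 → ℕ => f (x 0) (x 1)))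
    {g h : (Fin k → ℕ) → ℕ} (hg : Comp A g) (hh : Comp A h) :
    Comp A (fun x => f (g x) (h x)) := by
  have := Comp.comp (f := fun x : Fin 2 → ℕ => f (x 0) (x 1)) hf (g := ![g, h])
    (by intro i; fin_cases i <;> simp [hg, hh])
  simpa using this

theorem Comp.pred_base : Comp A (fun x : Fin 1 → ℕ => x 0 - 1) := by
  have := Comp.primrec (A := A) (k := 0) (F := fun m _ => m - 1) (g := fun _ => 0)
    (h := fun y => y 0) (Comp.const 0) (Comp.proj 0) (fun _ => rfl) (fun m x => by simp)
    X (fun m x => by simp)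
  simpa using this

theorem Comp.pred {f : (Fin k → ℕ) → ℕ} (hf : Comp A f) : Comp A (fun x => f x - 1) :=
  Comp.comp1 (f := fun m => m - 1) Comp.pred_base hf

theorem Comp.sub_base : Comp A (fun x : Fin 2 → ℕ => x 1 - x 0) := by
  have := Comp.primrec (A := A) (k := 1) (F := fun m x => x 0 - m) (g := fun x => x 0)
    (h := fun y => y 1 - 1) (Comp.proj 0) (Comp.pred (Comp.proj 1)) (fun _ => by simp)
    (fun m x => by simp [Nat.sub_sub]) X (fun m x => by simp; omega)
  simpa [Fin.tail] using this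

theorem Comp.sub {f g : (Fin k → ℕ) → ℕ} (hf : Comp A f) (hg : Comp A g) :
    Comp A (fun x => f x - g x) :=
  Comp.comp2 (f := fun a b => b - a) Comp.sub_base hg hf

theorem Comp.mul_base : Comp A (fun x : Fin 2 → ℕ => x 0 * x 1) := by
  have := Comp.primrec (A := A) (k := 1) (F := fun m x => m * x 0) (g := fun _ => 0)
    (h := fun y => y 1 + y 2) (Comp.const 0) (Comp.add (Comp.proj 1) (Comp.proj 2))
    (fun _ => by simp)
    (fun m x => by
      simp only [Fin.cons_one, Fin.cons_zero, Nat.succ_mul]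
      rfl)
    (X ^ 2) (fun m x => by simp; nlinarith)
  simpa [Fin.tail] using this

theorem Comp.mul {f g : (Fin k → ℕ) → ℕ} (hf : Comp A f) (hg : Comp A g) :
    Comp A (fun x => f x * g x) :=
  Comp.comp2 (f := fun a b => a * b) Comp.mul_base hf hg

theorem Comp.congr {f g : (Fin k → ℕ) → ℕ} (hf : Comp A f) (h : ∀ x, f x = g x) : Comp A g := by
  have : f = g := funext h
  rwa [← this]

theorem Comp.le_ind {f g : (Fin k → ℕ) → ℕ} (hf : Comp A f) (hg : Comp A g) :
    Comp A (fun x => if f x ≤ g x then 1 else 0) := by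
  refine Comp.congr (Comp.sub (Comp.const 1) (Comp.sub hf hg)) (fun x => ?_)
  split_ifs with h <;> omega

theorem Comp.lt_ind {f g : (Fin k → ℕ) → ℕ} (hf : Comp A f) (hg : Comp A g) :
    Comp A (fun x => if f x < g x then 1 else 0) :=
  Comp.le_ind (f := fun x => f x + 1) (Comp.add hf (Comp.const 1)) hg

/-- conjunction of indicators -/
theorem Comp.and_ind {p q : (Fin k → ℕ) → Prop} [DecidablePred p] [DecidablePred q]
    (hp : Comp A (fun x => if p x then 1 else 0)) (hq : Comp A (fun x => if q x then 1 else 0)) :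
    Comp A (fun x => if p x ∧ q x then 1 else 0) := by
  refine Comp.congr (Comp.mul hp hq) (fun x => ?_)
  by_cases h1 : p x <;> by_cases h2 : q x <;> simp [h1, h2]

/-- negation of an indicator -/
theorem Comp.not_ind {p : (Fin k → ℕ) → Prop} [DecidablePred p]
    (hp : Comp A (fun x => if p x then 1 else 0)) :
    Comp A (fun x => if ¬ p x then 1 else 0) := by
  refine Comp.congr (Comp.sub (Comp.const 1) hp) (fun x => ?_)
  by_cases h1 : p x <;> simp [h1]

/-- disjunction of indicators -/
theorem Comp.or_ind {p q : (Fin k → ℕ) → Prop} [DecidablePred p] [DecidablePred q]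
    (hp : Comp A (fun x => if p x then 1 else 0)) (hq : Comp A (fun x => if q x then 1 else 0)) :
    Comp A (fun x => if p x ∨ q x then 1 else 0) := by
  refine Comp.congr (Comp.not_ind (p := fun x => ¬ p x ∧ ¬ q x)
    (Comp.and_ind (Comp.not_ind hp) (Comp.not_ind hq))) (fun x => ?_)
  by_cases h1 : p x <;> by_cases h2 : q x <;> simp [h1, h2]

theorem Comp.eq_ind {f g : (Fin k → ℕ) → ℕ} (hf : Comp A f) (hg : Comp A g) :
    Comp A (fun x => if f x = g x then 1 else 0) := by
  refine Comp.congr (Comp.and_ind (Comp.le_ind hf hg) (Comp.le_ind hg hf)) (fun x => ?_)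
  simp only [le_antisymm_iff]

/-- case distinction -/
theorem Comp.ite {p : (Fin k → ℕ) → Prop} [DecidablePred p] {f g : (Fin k → ℕ) → ℕ}
    (hp : Comp A (fun x => if p x then 1 else 0)) (hf : Comp A f) (hg : Comp A g) :
    Comp A (fun x => if p x then f x else g x) := by
  refine Comp.congr (Comp.add (Comp.mul hp hf) (Comp.mul (Comp.not_ind hp) hg)) (fun x => ?_)
  by_cases h1 : p x <;> simp [h1]

theorem Comp.ite0 {c f g : (Fin k → ℕ) → ℕ} (hc : Comp A c) (hf : Comp A f) (hg : Comp A g) :
    Comp A (fun x => if c x = 0 then f x else g x) :=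
  Comp.ite (Comp.eq_ind hc (Comp.const 0)) hf hg

theorem succ_mod_eq (m y : ℕ) : (m + 1) % y = if m % y + 1 = y then 0 else m % y + 1 := by
  rcases Nat.eq_zero_or_pos y with rfl | hy
  · simp
  have h1 : m % y < y := Nat.mod_lt _ hy
  rw [← Nat.mod_add_mod]
  split_ifs with h
  · rw [h, Nat.mod_self]
  · rw [Nat.mod_eq_of_lt (by omega)]

theorem Comp.mod_base : Comp A (fun x : Fin 2 → ℕ => x 0 % x 1) := by
  have := Comp.primrec (A := A) (k := 1) (F := fun m x => m % x 0) (g := fun _ => 0)
    (h := fun y => if y 1 + 1 = y 2 then 0 else y 1 + 1) (Comp.const 0)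
    (Comp.ite (Comp.eq_ind (Comp.add (Comp.proj 1) (Comp.const 1)) (Comp.proj 2)) (Comp.const 0)
      (Comp.add (Comp.proj 1) (Comp.const 1)))
    (fun _ => by simp)
    (fun m x => by
      simp only [succ_mod_eq]
      rfl)
    X (fun m x => by simp only [eval_X]; exact (Nat.mod_le _ _).trans (Nat.le_add_right _ _))
  simpa [Fin.tail] using this

theorem Comp.mod {f g : (Fin k → ℕ) → ℕ} (hf : Comp A f) (hg : Comp A g) :
    Comp A (fun x => f x % g x) :=
  Comp.comp2 (f := fun a b => a % b) Comp.mod_base hf hg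

theorem Comp.dvd_ind {f g : (Fin k → ℕ) → ℕ} (hf : Comp A f) (hg : Comp A g) :
    Comp A (fun x => if g x ∣ f x then 1 else 0) := by
  refine Comp.congr (Comp.eq_ind (Comp.mod hf hg) (Comp.const 0)) (fun x => ?_)
  simp only [Nat.dvd_iff_mod_eq_zero]

theorem Comp.div_base : Comp A (fun x : Fin 2 → ℕ => x 0 / x 1) := by
  have := Comp.primrec (A := A) (k := 1) (F := fun m x => m / x 0) (g := fun _ => 0)
    (h := fun y => y 1 + if y 2 ∣ y 0 + 1 then 1 else 0) (Comp.const 0)
    (Comp.add (Comp.proj 1) (Comp.dvd_ind (Comp.add (Comp.proj 0) (Comp.const 1)) (Comp.proj 2)))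
    (fun _ => by simp)
    (fun m x => by
      simp only [Nat.succ_div]
      rfl)
    X (fun m x => by simp only [eval_X]; exact (Nat.div_le_self _ _).trans (Nat.le_add_right _ _))
  simpa [Fin.tail] using this

theorem Comp.div {f g : (Fin k → ℕ) → ℕ} (hf : Comp A f) (hg : Comp A g) :
    Comp A (fun x => f x / g x) :=
  Comp.comp2 (f := fun a b => a / b) Comp.div_base hf hg

theorem Comp.pow_const {f : (Fin k → ℕ) → ℕ} (hf : Comp A f) (r : ℕ) :
    Comp A (fun x => f x ^ r) := by
  induction r with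
  | zero => simpa using Comp.const (A := A) (k := k) 1
  | succ r ih =>
    refine Comp.congr (Comp.mul ih hf) (fun x => ?_)
    rw [pow_succ]

end PolyTM
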