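import Mathlib

/-!
# Structured counter programs and their compilation to polynomial time Turing machines (TM2)
-/

namespace PolyTM

open Turing Function

/-- structured programs: unary registers `0, 1, 2, …` and an output stack -/
inductive Prog (A : Type) : Type
  | skip : Prog A
  | inc (i : ℕ) : Prog A
  | out (x : A) : Prog A
  | seq (P Q : Prog A) : Prog A
  | loop (i : ℕ) (P : Prog A) : Prog A

variable {A : Type}

/-- big-step semantics with the exact number of machine steps; a state consists of the registers
`c` and the output `o` (last written symbol first) -/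
inductive Big : Prog A → (ℕ → ℕ) → List A → (ℕ → ℕ) → List A → ℕ → Prop
  | skip (c o) : Big .skip c o c o 0
  | inc (i c o) : Big (.inc i) c o (update c i (c i + 1)) o 1
  | out (x c o) : Big (.out x) c o c (x :: o) 1
  | seq {P Q c o c' o' c'' o'' t t'} : Big P c o c' o' t → Big Q c' o' c'' o'' t' →
      Big (.seq P Q) c o c'' o'' (t + t')
  | loop_zero {i P c o} : c i = 0 → Big (.loop i P) c o c o 1
  | loop_succ {i P c o c' o' c'' o'' t t'} : c i ≠ 0 →
      Big P (update c i (c i - 1)) o c' o' t → Big (.loop i P) c' o' c'' o'' t' →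
      Big (.loop i P) c o c'' o'' (t + t' + 2)

/-- assembly instructions -/
inductive Instr (A : Type) : Type
  | inc (i : ℕ) : Instr A
  | dec (i : ℕ) (d : ℕ) : Instr A
  | jmp (d : ℕ) : Instr A
  | out (x : A) : Instr A
  | rd (i₁ i₂ : ℕ) : Instr A
  | stop : Instr A

/-- size of the compiled code -/
def Prog.size : Prog A → ℕ
  | .skip => 0
  | .inc _ => 1
  | .out _ => 1
  | .seq P Q => P.size + Q.size
  | .loop _ P => P.size + 2

/-- the compiler; `off` is the address of the first instruction -/
def compile : Prog A → ℕ → List (Instr A)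
  | .skip, _ => []
  | .inc i, _ => [.inc i]
  | .out x, _ => [.out x]
  | .seq P Q, off => compile P off ++ compile Q (off + P.size)
  | .loop i P, off => .dec i (off + P.size + 2) :: (compile P (off + 1) ++ [.jmp off])

lemma length_compile (P : Prog A) : ∀ off, (compile P off).length = P.size := by
  induction P with
  | skip => intro off; rfl
  | inc i => intro off; rfl
  | out x => intro off; rfl
  | seq P Q hP hQ => intro off; simp [compile, Prog.size, hP, hQ]
  | loop i P hP => intro off; simp [compile, Prog.size, hP]

/-- the largest register used -/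
def Prog.maxReg : Prog A → ℕ
  | .skip => 0
  | .inc i => i
  | .out _ => 0
  | .seq P Q => max P.maxReg Q.maxReg
  | .loop i P => max i P.maxReg

/-- the stacks: output, input, registers -/
abbrev Stk (r : ℕ) : Type := Option (Option (Fin (r + 1)))

/-- the stack of a register -/
def reg (r i : ℕ) : Stk r := some (some (Fin.ofNat (r + 1) i))

/-- the program labels -/
abbrev Lab (L : List (Instr A)) : Type := Fin (L.length + 1)

/-- the label of an address -/
def lab (L : List (Instr A)) (d : ℕ) : Lab L := Fin.ofNat (L.length + 1) d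

/-- the statement of an instruction at address `pc`; `u` is the symbol used in the registers and
the first input symbol. `rd i₁ i₂`: read all of the input: every `u` increments `i₁`, every other
symbol increments `i₂`. -/
def stmt [DecidableEq A] (u : A) (r : ℕ) (L : List (Instr A)) (pc : ℕ) :
    Instr A → TM2.Stmt (fun _ : Stk r => A) (Lab L) (Option A)
  | .inc i => .push (reg r i) (fun _ => u) (.goto fun _ => lab L (pc + 1))
  | .dec i d => .pop (reg r i) (fun _ x => x)
      (.branch (fun v => v.isSome) (.load (fun _ => none) (.goto fun _ => lab L (pc + 1)))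
        (.load (fun _ => none) (.goto fun _ => lab L d)))
  | .jmp d => .goto fun _ => lab L d
  | .out x => .push none (fun _ => x) (.goto fun _ => lab L (pc + 1))
  | .rd i₁ i₂ => .pop (some none) (fun _ x => x)
      (.branch (fun v => v.isSome)
        (.branch (fun v => v = some u)
          (.push (reg r i₁) (fun _ => u) (.load (fun _ => none) (.goto fun _ => lab L pc)))
          (.push (reg r i₂) (fun _ => u) (.load (fun _ => none) (.goto fun _ => lab L pc))))
        (.load (fun _ => none) (.goto fun _ => lab L (pc + 1))))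
  | .stop => .halt

/-- the machine of a code -/
def machine [Fintype A] [DecidableEq A] (u : A) (r : ℕ) (L : List (Instr A)) : FinTM2 where
  K := Stk r
  k₀ := some none
  k₁ := none
  Γ _ := A
  Λ := Lab L
  main := lab L 0
  σ := Option A
  initialState := none
  m l := stmt u r L l.1 (L.getD l.1 .stop)

/-- the stacks of a state -/
def stks (u : A) (r : ℕ) (c : ℕ → ℕ) (o inp : List A) : Stk r → List A
  | none => o
  | some none => inp
  | some (some i) => List.replicate (c i.1) u

variable [Fintype A] [DecidableEq A]

/-- the machine configuration of a state -/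
def cfg (u : A) (r : ℕ) (L : List (Instr A)) (pc : ℕ) (c : ℕ → ℕ) (o inp : List A) :
    (machine u r L).Cfg :=
  { l := some (lab L pc), var := none, stk := stks u r c o inp }

/-- `t` steps lead from one configuration to another one -/
def Run (tm : FinTM2) (t : ℕ) (a b : tm.Cfg) : Prop :=
  (flip bind tm.step)^[t] (some a) = some b

lemma Run.refl (tm : FinTM2) (a : tm.Cfg) : Run tm 0 a a := rfl

lemma Run.trans {tm : FinTM2} {t t' : ℕ} {a b c : tm.Cfg} (h : Run tm t a b)
    (h' : Run tm t' b c) : Run tm (t + t') a c := by
  unfold Run at *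
  rw [add_comm, Function.iterate_add_apply, h, h']

lemma Run.one {tm : FinTM2} {a b : tm.Cfg} (h : tm.step a = some b) : Run tm 1 a b := h

omit [Fintype A] [DecidableEq A] in
lemma lab_val {L : List (Instr A)} {d : ℕ} (h : d ≤ L.length) : (lab L d).1 = d := by
  simp only [lab, Fin.ofNat]
  exact Nat.mod_eq_of_lt (by omega)

/-- the code of `C` sits at address `off` of `L` -/
def CodeAt (L : List (Instr A)) (off : ℕ) (C : List (Instr A)) : Prop :=
  ∀ j, ∀ x, C[j]? = some x → L[off + j]? = some x

omit [Fintype A] [DecidableEq A] in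
lemma CodeAt.append {L C D : List (Instr A)} {off : ℕ} (h : CodeAt L off (C ++ D)) :
    CodeAt L off C ∧ CodeAt L (off + C.length) D := by
  constructor
  · intro j x hj
    apply h j x
    rw [List.getElem?_append_left]
    · exact hj
    · exact (List.getElem?_eq_some_iff.1 hj).1
  · intro j x hj
    rw [add_assoc]
    apply h (C.length + j) x
    rw [List.getElem?_append_right (by omega)]
    simpa using hj

omit [Fintype A] [DecidableEq A] in
lemma CodeAt.cons {L C : List (Instr A)} {off : ℕ} {y : Instr A} (h : CodeAt L off (y :: C)) :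
    L[off]? = some y ∧ CodeAt L (off + 1) C := by
  constructor
  · have := h 0 y (by simp)
    simpa using this
  · intro j x hj
    have := h (j + 1) x (by simpa using hj)
    rwa [add_assoc, add_comm 1 j]

lemma step_cfg (u : A) (r : ℕ) (L : List (Instr A)) {pc : ℕ} (c : ℕ → ℕ) (o inp : List A)
    {x : Instr A} (hx : L[pc]? = some x) :
    (machine u r L).step (cfg u r L pc c o inp) =
      some (TM2.stepAux (stmt u r L pc x) none (stks u r c o inp)) := by
  have hpc : pc < L.length := (List.getElem?_eq_some_iff.1 hx).1
  have h1 : (lab L pc).1 = pc := lab_val hpc.le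
  have h2 : L.getD (lab L pc).1 .stop = x := by
    rw [h1, List.getD_eq_getElem?_getD, hx]; rfl
  show some (TM2.stepAux (stmt u r L (lab L pc).1 (L.getD (lab L pc).1 .stop)) none _) = _
  rw [h2, h1]

omit [Fintype A] [DecidableEq A] in
lemma stks_reg (u : A) {r i : ℕ} (hi : i ≤ r) (c : ℕ → ℕ) (o inp : List A) :
    stks u r c o inp (reg r i) = List.replicate (c i) u := by
  have hreg : (Fin.ofNat (r + 1) i).1 = i := Nat.mod_eq_of_lt (by omega)
  simp only [reg, stks, hreg]

omit [Fintype A] [DecidableEq A] in
lemma stks_upd (u : A) {r i : ℕ} (hi : i ≤ r) (c : ℕ → ℕ) (o inp : List A) (m : ℕ) :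
    update (stks u r c o inp) (reg r i) (List.replicate m u) =
      stks u r (update c i m) o inp := by
  have hreg : (Fin.ofNat (r + 1) i).1 = i := Nat.mod_eq_of_lt (by omega)
  funext k
  by_cases hk : k = reg r i
  · subst hk
    rw [update_self, stks_reg u hi, update_self]
  · rw [update_of_ne hk]
    rcases k with _ | _ | k
    · rfl
    · rfl
    · have hki : k.1 ≠ i := by
        intro h
        apply hk
        simp only [reg]
        congr 2
        exact Fin.ext (by rw [hreg, h])
      simp only [stks]
      rw [update_of_ne hki]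

omit [Fintype A] [DecidableEq A] in
lemma stks_inc (u : A) {r i : ℕ} (hi : i ≤ r) (c : ℕ → ℕ) (o inp : List A) :
    update (stks u r c o inp) (reg r i) (u :: stks u r c o inp (reg r i)) =
      stks u r (update c i (c i + 1)) o inp := by
  rw [stks_reg u hi, ← List.replicate_succ, stks_upd u hi]

omit [Fintype A] [DecidableEq A] in
lemma stks_dec (u : A) {r i : ℕ} (hi : i ≤ r) (c : ℕ → ℕ) (o inp : List A) :
    update (stks u r c o inp) (reg r i) (stks u r c o inp (reg r i)).tail =
      stks u r (update c i (c i - 1)) o inp := by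
  rw [stks_reg u hi, List.tail_replicate, stks_upd u hi]

omit [Fintype A] [DecidableEq A] in
lemma stks_out (u : A) (r : ℕ) (c : ℕ → ℕ) (x : A) (o inp : List A) :
    update (stks u r c o inp) none (x :: stks u r c o inp none) =
      stks u r c (x :: o) inp := by
  funext k
  rcases k with _ | _ | k <;> simp [stks]

lemma run_inc (u : A) {r i : ℕ} (hi : i ≤ r) {L : List (Instr A)} {pc : ℕ}
    (hx : L[pc]? = some (.inc i)) (c : ℕ → ℕ) (o inp : List A) :
    Run (machine u r L) 1 (cfg u r L pc c o inp)
      (cfg u r L (pc + 1) (update c i (c i + 1)) o inp) := by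
  apply Run.one
  rw [step_cfg u r L c o inp hx]
  simp only [stmt, TM2.stepAux]
  rw [stks_inc u hi]
  rfl

lemma run_out (u : A) {r : ℕ} {L : List (Instr A)} {pc : ℕ} {x : A}
    (hx : L[pc]? = some (.out x)) (c : ℕ → ℕ) (o inp : List A) :
    Run (machine u r L) 1 (cfg u r L pc c o inp) (cfg u r L (pc + 1) c (x :: o) inp) := by
  apply Run.one
  rw [step_cfg u r L c o inp hx]
  simp only [stmt, TM2.stepAux]
  rw [stks_out]
  rfl

lemma run_jmp (u : A) {r : ℕ} {L : List (Instr A)} {pc d : ℕ}
    (hx : L[pc]? = some (.jmp d)) (c : ℕ → ℕ) (o inp : List A) :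
    Run (machine u r L) 1 (cfg u r L pc c o inp) (cfg u r L d c o inp) := by
  apply Run.one
  rw [step_cfg u r L c o inp hx]
  rfl

lemma run_dec_zero (u : A) {r i d : ℕ} (hi : i ≤ r) {L : List (Instr A)} {pc : ℕ}
    (hx : L[pc]? = some (.dec i d)) {c : ℕ → ℕ} (hc : c i = 0) (o inp : List A) :
    Run (machine u r L) 1 (cfg u r L pc c o inp) (cfg u r L d c o inp) := by
  apply Run.one
  rw [step_cfg u r L c o inp hx]
  simp only [stmt, TM2.stepAux]
  rw [stks_dec u hi, stks_reg u hi, hc]
  have : update c i (0 - 1) = c := by
    rw [show (0 - 1 : ℕ) = c i by rw [hc]]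
    exact update_eq_self i c
  rw [this]
  rfl

lemma run_dec_succ (u : A) {r i d : ℕ} (hi : i ≤ r) {L : List (Instr A)} {pc : ℕ}
    (hx : L[pc]? = some (.dec i d)) {c : ℕ → ℕ} (hc : c i ≠ 0) (o inp : List A) :
    Run (machine u r L) 1 (cfg u r L pc c o inp)
      (cfg u r L (pc + 1) (update c i (c i - 1)) o inp) := by
  apply Run.one
  rw [step_cfg u r L c o inp hx]
  simp only [stmt, TM2.stepAux]
  rw [stks_dec u hi, stks_reg u hi]
  obtain ⟨m, hm⟩ := Nat.exists_eq_succ_of_ne_zero hc
  rw [hm, List.replicate_succ]
  rfl

/-- correctness of the compiler -/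
theorem run_compile (u : A) {r : ℕ} (inp : List A) {P : Prog A} {c c' : ℕ → ℕ} {o o' : List A}
    {t : ℕ} (h : Big P c o c' o' t) : P.maxReg ≤ r → ∀ (L : List (Instr A)) (off : ℕ),
    CodeAt L off (compile P off) →
    Run (machine u r L) t (cfg u r L off c o inp) (cfg u r L (off + P.size) c' o' inp) := by
  induction h with
  | skip c o => intro _ L off _; exact Run.refl _ _
  | inc i c o =>
    intro hr L off hL
    exact run_inc u hr (CodeAt.cons hL).1 c o inp
  | out x c o =>
    intro _ L off hL
    exact run_out u (CodeAt.cons hL).1 c o inp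
  | seq hP hQ ihP ihQ =>
    intro hr L off hL
    simp only [Prog.maxReg, max_le_iff] at hr
    obtain ⟨h1, h2⟩ := CodeAt.append hL
    rw [length_compile] at h2
    have h3 := (ihP hr.1 L off h1).trans (ihQ hr.2 L _ h2)
    rw [Prog.size, ← add_assoc]
    exact h3
  | loop_zero hc =>
    intro hr L off hL
    simp only [Prog.maxReg, max_le_iff] at hr
    exact run_dec_zero u hr.1 (CodeAt.cons hL).1 hc _ inp
  | @loop_succ i P c o c' o' c'' o'' t t' hc hP hQ ihP ihQ =>
    intro hr L off hL
    have hr' := hr
    simp only [Prog.maxReg, max_le_iff] at hr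
    obtain ⟨h1, h2⟩ := CodeAt.cons hL
    obtain ⟨h3, h4⟩ := CodeAt.append h2
    rw [length_compile] at h4
    have e1 := run_dec_succ u hr.1 h1 hc o inp
    have e2 := ihP hr.2 L (off + 1) h3
    have e3 := run_jmp u (r := r) (CodeAt.cons h4).1 c' o' inp
    have e4 := ihQ hr' L off hL
    have e5 := ((e1.trans e2).trans e3).trans e4
    have : 1 + t + 1 + t' = t + t' + 2 := by ring
    rw [this] at e5
    exact e5

end PolyTM
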