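import Vale.Agent.Lib.PolyTM.Algebra

/-!
# Printing strings in polynomial time
-/

namespace PolyTM

open Function Finset Turing

variable {A : Type}

/-! ### Printing programs -/

/-- `S` is printed in polynomial time by a program: for all input registers `a j` and every `b`
above them there is a program which, if all registers `≥ b` are zero, writes `S (inputs)` on top of
the output stack and changes nothing else. -/
def Prn (A : Type) {k : ℕ} (S : (Fin k → ℕ) → List A) : Prop :=
  ∃ p : Polynomial ℕ, ∀ (a : Fin k → ℕ) (b : ℕ), (∀ j, a j < b) →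
    ∃ P : Prog A, ∀ (c : ℕ → ℕ) (l : List A), (∀ r, b ≤ r → c r = 0) →
      ∃ t ≤ p.eval (∑ j, c (a j)), Big P c l c (S (fun j => c (a j)) ++ l) t

/-- write a word, last letter first -/
def outW : List A → Prog A
  | [] => .skip
  | x :: w => .seq (outW w) (.out x)

lemma big_outW (w : List A) (c : ℕ → ℕ) (l : List A) : Big (outW w) c l c (w ++ l) w.length := by
  induction w with
  | nil => exact Big.skip _ _
  | cons x w ih => exact Big.seq ih (Big.out _ _ _)

theorem Prn.word {k : ℕ} (w : List A) : Prn A (fun _ : Fin k → ℕ => w) :=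
  ⟨Polynomial.C w.length, fun _ _ _ => ⟨outW w, fun c l _ =>
    ⟨w.length, by simp, big_outW w c l⟩⟩⟩

theorem Prn.append {k : ℕ} {S S' : (Fin k → ℕ) → List A} (hS : Prn A S) (hS' : Prn A S') :
    Prn A (fun x => S x ++ S' x) := by
  obtain ⟨p, hp⟩ := hS
  obtain ⟨q, hq⟩ := hS'
  refine ⟨p + q, fun a b ha => ?_⟩
  obtain ⟨P, hP⟩ := hp a b ha
  obtain ⟨Q, hQ⟩ := hq a b ha
  refine ⟨.seq Q P, fun c l hc => ?_⟩
  obtain ⟨t, ht, h1⟩ := hQ c l hc
  obtain ⟨t', ht', h2⟩ := hP c (S' (fun j => c (a j)) ++ l) hc
  refine ⟨t + t', ?_, ?_⟩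
  · rw [Polynomial.eval_add]; omega
  · rw [List.append_assoc]
    exact Big.seq h1 h2

theorem Prn.flatMap {k : ℕ} {T : (Fin k → ℕ) → ℕ} {S : (Fin (k + 1) → ℕ) → List A}
    (hT : Comp A T) (hS : Prn A S) :
    Prn A (fun x => (List.range (T x)).flatMap fun j => S (Fin.cons j x)) := by
  obtain ⟨q, hq⟩ := hT.bound
  obtain ⟨pT, hpT⟩ := hT
  obtain ⟨pS, hpS⟩ := hS
  refine ⟨pT + (q * (pS.comp (q + Polynomial.X) + 2) + 1), fun a b ha => ?_⟩
  obtain ⟨P, hP⟩ := hpT a b (b + 1) (fun j => by have := ha j; omega) (by omega)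
    (fun j => by have := ha j; omega)
  obtain ⟨Q, hQ⟩ := hpS (Fin.cons b a) (b + 1) (fun j => by
    refine Fin.cases ?_ (fun j => ?_) j
    · rw [Fin.cons_zero]; omega
    · rw [Fin.cons_succ]; have := ha j; omega)
  refine ⟨.seq P (.loop b Q), fun c l hc => ?_⟩
  set x : Fin k → ℕ := fun j => c (a j) with hx
  obtain ⟨t, ht, h1⟩ := hP c l (fun r hr => hc r (by omega))
  rw [hc b le_rfl, zero_add, ← hx] at h1
  have hbody : ∀ m : ℕ, ∃ t ≤ pS.eval (m + ∑ j, x j),
      Big Q (update (update c b (m + 1)) b m)
        (((List.range' (m + 1) (T x - (m + 1))).flatMap fun j => S (Fin.cons j x)) ++ l)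
        (update c b m)
        (S (Fin.cons m x) ++
          (((List.range' (m + 1) (T x - (m + 1))).flatMap fun j => S (Fin.cons j x)) ++ l)) t := by
    intro m
    rw [update_idem]
    obtain ⟨t, ht, h2⟩ := hQ (update c b m)
      (((List.range' (m + 1) (T x - (m + 1))).flatMap fun j => S (Fin.cons j x)) ++ l)
      (fun r hr => by rw [update_of_ne (by omega)]; exact hc r (by omega))
    have e : (fun j => update c b m ((Fin.cons b a : Fin (k + 1) → ℕ) j)) = Fin.cons m x := by
      funext j
      refine Fin.cases ?_ (fun j => ?_) j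
      · rw [Fin.cons_zero, Fin.cons_zero, update_self]
      · rw [Fin.cons_succ, Fin.cons_succ, update_of_ne (by have := ha j; omega)]
    have e' : ∑ j, update c b m ((Fin.cons b a : Fin (k + 1) → ℕ) j) = m + ∑ j, x j := by
      have := congrArg (fun f : Fin (k + 1) → ℕ => ∑ i, f i) e
      rw [this, Fin.sum_univ_succ, Fin.cons_zero]
      simp only [Fin.cons_succ]
    rw [e'] at ht
    rw [e] at h2
    exact ⟨t, ht, h2⟩
  choose τ hτ hτ' using hbody
  have h2 := big_loop (i := b) (P := Q) (fun m => update c b m)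
    (fun m => ((List.range' m (T x - m)).flatMap fun j => S (Fin.cons j x)) ++ l) τ
    (fun m => update_self _ _ _) (T x) (fun m hm => by
      have e : List.range' m (T x - m) = m :: List.range' (m + 1) (T x - (m + 1)) := by
        have : T x - m = (T x - (m + 1)) + 1 := by omega
        rw [this, List.range'_succ]
      rw [e, List.flatMap_cons, List.append_assoc]
      exact hτ' m)
  simp only [Nat.sub_self, List.range'_zero, List.flatMap_nil, List.nil_append, Nat.sub_zero] at h2
  have e0 : update c b 0 = c := by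
    rw [← hc b le_rfl, update_eq_self]
  rw [e0, ← List.range_eq_range'] at h2
  refine ⟨_, ?_, Big.seq h1 h2⟩
  have s0 : ∑ j, c (a j) = ∑ j, x j := rfl
  rw [s0] at ht ⊢
  have s1 : ∑ m ∈ Finset.range (T x), (τ m + 2) ≤
      T x * (pS.eval (q.eval (∑ j, x j) + ∑ j, x j) + 2) := by
    calc ∑ m ∈ Finset.range (T x), (τ m + 2)
        ≤ ∑ m ∈ Finset.range (T x), (pS.eval (q.eval (∑ j, x j) + ∑ j, x j) + 2) := by
          refine Finset.sum_le_sum fun m hm => ?_
          have h3 := hτ m
          have h4 : pS.eval (m + ∑ j, x j) ≤ pS.eval (q.eval (∑ j, x j) + ∑ j, x j) := by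
            apply eval_mono
            have := hq x
            have := Finset.mem_range.1 hm
            omega
          omega
      _ = _ := by rw [sum_const, card_range, smul_eq_mul]
  have s2 : T x * (pS.eval (q.eval (∑ j, x j) + ∑ j, x j) + 2) ≤
      q.eval (∑ j, x j) * (pS.eval (q.eval (∑ j, x j) + ∑ j, x j) + 2) :=
    Nat.mul_le_mul_right _ (hq x)
  simp only [Polynomial.eval_add, Polynomial.eval_mul, Polynomial.eval_comp, Polynomial.eval_X,
    Polynomial.eval_ofNat, Polynomial.eval_one]
  omega

theorem Prn.congr {k : ℕ} {S S' : (Fin k → ℕ) → List A} (hS : Prn A S) (h : ∀ x, S x = S' x) :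
    Prn A S' := by
  have : S = S' := funext h
  rwa [← this]

/-- a word printed `e` times -/
theorem Prn.rep {k : ℕ} {e : (Fin k → ℕ) → ℕ} (he : Comp A e) (w : List A) :
    Prn A (fun x => (List.replicate (e x) w).flatten) := by
  refine (Prn.flatMap he (Prn.word w)).congr fun x => ?_
  rw [List.flatMap_def, List.map_const', List.length_range]

/-- concatenation over a fixed list -/
theorem Prn.listFlatMap {k : ℕ} {B : Type*} (L : List B) {S : B → (Fin k → ℕ) → List A}
    (hS : ∀ b ∈ L, Prn A (S b)) : Prn A (fun x => L.flatMap fun b => S b x) := by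
  induction L with
  | nil => exact Prn.word []
  | cons b L ih =>
    refine ((hS b (by simp)).append (ih fun b' hb' => hS b' (by simp [hb']))).congr fun x => ?_
    rw [List.flatMap_cons]

/-! ### Reading the input -/

section machine

variable [Fintype A] [DecidableEq A]

omit [Fintype A] [DecidableEq A] in
lemma stks_inp (u : A) (r : ℕ) (c : ℕ → ℕ) (o inp : List A) :
    update (stks u r c o inp) (some none) (stks u r c o inp (some none)).tail =
      stks u r c o inp.tail := by
  funext k
  rcases k with _ | _ | k <;> simp [stks]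

lemma run_rd_u (u : A) {r i₁ i₂ : ℕ} (hi : i₁ ≤ r) {L : List (Instr A)} {pc : ℕ}
    (hx : L[pc]? = some (.rd i₁ i₂)) (c : ℕ → ℕ) (o inp : List A) :
    Run (machine u r L) 1 (cfg u r L pc c o (u :: inp))
      (cfg u r L pc (update c i₁ (c i₁ + 1)) o inp) := by
  apply Run.one
  rw [step_cfg u r L c o _ hx]
  simp only [stmt, TM2.stepAux]
  rw [stks_inp]
  have h1 : (stks u r c o (u :: inp) (some none)).head? = some u := rfl
  rw [h1]
  simp only [Option.isSome_some, cond_true, decide_true, List.tail_cons]
  rw [stks_inc u hi]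
  rfl

lemma run_rd_v (u v : A) (huv : v ≠ u) {r i₁ i₂ : ℕ} (hi : i₂ ≤ r) {L : List (Instr A)} {pc : ℕ}
    (hx : L[pc]? = some (.rd i₁ i₂)) (c : ℕ → ℕ) (o inp : List A) :
    Run (machine u r L) 1 (cfg u r L pc c o (v :: inp))
      (cfg u r L pc (update c i₂ (c i₂ + 1)) o inp) := by
  apply Run.one
  rw [step_cfg u r L c o _ hx]
  simp only [stmt, TM2.stepAux]
  rw [stks_inp]
  have h1 : (stks u r c o (v :: inp) (some none)).head? = some v := rfl
  rw [h1]
  have h2 : decide ((some v : Option A) = some u) = false := by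
    simp [huv]
  rw [h2]
  simp only [Option.isSome_some, cond_true, cond_false, List.tail_cons]
  rw [stks_inc u hi]
  rfl

lemma run_rd_nil (u : A) {r i₁ i₂ : ℕ} {L : List (Instr A)} {pc : ℕ}
    (hx : L[pc]? = some (.rd i₁ i₂)) (c : ℕ → ℕ) (o : List A) :
    Run (machine u r L) 1 (cfg u r L pc c o []) (cfg u r L (pc + 1) c o []) := by
  apply Run.one
  rw [step_cfg u r L c o _ hx]
  simp only [stmt, TM2.stepAux]
  rw [stks_inp]
  rfl

lemma run_rd_us (u : A) {r i₁ i₂ : ℕ} (hi : i₁ ≤ r) {L : List (Instr A)} {pc : ℕ}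
    (hx : L[pc]? = some (.rd i₁ i₂)) (o inp : List A) (n : ℕ) : ∀ c : ℕ → ℕ,
    Run (machine u r L) n (cfg u r L pc c o (List.replicate n u ++ inp))
      (cfg u r L pc (update c i₁ (c i₁ + n)) o inp) := by
  induction n with
  | zero =>
    intro c
    rw [add_zero, update_eq_self]
    exact Run.refl _ _
  | succ n ih =>
    intro c
    have h1 := run_rd_u u hi hx c o (List.replicate n u ++ inp)
    have h2 := h1.trans (ih _)
    rw [update_self, update_idem, add_assoc, add_comm 1 n] at h2
    rw [List.replicate_succ, List.cons_append]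
    exact h2

lemma run_rd_vs (u v : A) (huv : v ≠ u) {r i₁ i₂ : ℕ} (hi : i₂ ≤ r) {L : List (Instr A)} {pc : ℕ}
    (hx : L[pc]? = some (.rd i₁ i₂)) (o : List A) (n : ℕ) : ∀ c : ℕ → ℕ,
    Run (machine u r L) (n + 1) (cfg u r L pc c o (List.replicate n v))
      (cfg u r L (pc + 1) (update c i₂ (c i₂ + n)) o []) := by
  induction n with
  | zero =>
    intro c
    rw [add_zero, update_eq_self]
    exact run_rd_nil u hx c o
  | succ n ih =>
    intro c
    have h1 := run_rd_v u v huv hi hx c o (List.replicate n v)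
    have h2 := h1.trans (ih _)
    rw [update_self, update_idem, add_assoc, add_comm 1 n, add_comm 1 (n + 1)] at h2
    rw [List.replicate_succ]
    exact h2

/-- the state after reading the input -/
def ini (n s : ℕ) : ℕ → ℕ := fun r => if r = 0 then n else if r = 1 then s else 0

lemma run_stop (u : A) {r : ℕ} {L : List (Instr A)} {pc : ℕ}
    (hx : L[pc]? = some .stop) (c : ℕ → ℕ) (o inp : List A) :
    Run (machine u r L) 1 (cfg u r L pc c o inp)
      { l := none, var := none, stk := stks u r c o inp } := by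
  apply Run.one
  rw [step_cfg u r L c o _ hx]
  rfl

lemma init_eq (u : A) (r : ℕ) (L : List (Instr A)) (inp : List A) :
    initList (machine u r L) inp = cfg u r L 0 (fun _ => 0) [] inp := by
  unfold initList cfg
  congr 1
  funext k
  rcases k with _ | _ | k <;> rfl

lemma halt_eq (u : A) (r : ℕ) (L : List (Instr A)) (o : List A) :
    haltList (machine u r L) o =
      { l := none, var := none, stk := stks u r (fun _ => 0) o [] } := by
  unfold haltList
  congr 1
  funext k
  rcases k with _ | _ | k <;> rfl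

/-- a program gives a polynomial time Turing machine -/
theorem computable_of_big (u v : A) (huv : u ≠ v) (P : Prog A) (f : ℕ × ℕ → List A)
    (q : Polynomial ℕ)
    (h : ∀ n s, ∃ t ≤ q.eval (n + s), Big P (ini n s) [] (fun _ => 0) (f (n, s)) t) :
    ∃ M : TM2ComputableInPolyTime
      (fun p : ℕ × ℕ => List.replicate p.1 u ++ List.replicate p.2 v) id f,
      ∀ k, Finite (M.tm.Γ k) := by
  classical
  set L : List (Instr A) := .rd 0 1 :: (compile P 1 ++ [.stop]) with hL
  set r : ℕ := max P.maxReg 1 with hr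
  have hrun : ∀ p : ℕ × ℕ, ∃ t ≤ (q + Polynomial.X + 2).eval
      (List.replicate p.1 u ++ List.replicate p.2 v).length,
      Run (machine u r L) t
        (initList (machine u r L) (List.replicate p.1 u ++ List.replicate p.2 v))
        (haltList (machine u r L) (f p)) := by
    rintro ⟨n, s⟩
    obtain ⟨t, ht, hB⟩ := h n s
    have hcode : CodeAt L 0 L := fun j x hj => by rwa [zero_add]
    obtain ⟨h0, h1⟩ := CodeAt.cons hcode
    obtain ⟨h2, h3⟩ := CodeAt.append h1
    rw [length_compile] at h3
    have r1 := run_rd_us u (by omega : 0 ≤ r) h0 [] (List.replicate s v) n (fun _ => 0)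
    have r2 := run_rd_vs u v huv.symm (by omega : 1 ≤ r) h0 [] s
      (update (fun _ => 0) 0 (0 + n))
    have e1 : update (update (fun _ => 0) 0 (0 + n)) 1
        ((update (fun _ => 0) 0 (0 + n) : ℕ → ℕ) 1 + s) = ini n s := by
      funext j
      simp only [update_apply, ini]
      split_ifs <;> simp_all
    rw [e1] at r2
    have r3 := run_compile u [] hB (le_max_left _ _ : P.maxReg ≤ r) L (0 + 1) h2
    have r4 := run_stop u (r := r) (CodeAt.cons h3).1 (fun _ => 0) (f (n, s)) []
    have r5 := ((r1.trans r2).trans r3).trans r4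
    rw [← init_eq, ← halt_eq] at r5
    refine ⟨_, ?_, r5⟩
    simp only [List.length_append, List.length_replicate, Polynomial.eval_add,
      Polynomial.eval_X, Polynomial.eval_ofNat]
    omega
  choose τ hτ hR using hrun
  refine ⟨{ tm := machine u r L
            inputAlphabet := Equiv.refl A
            outputAlphabet := Equiv.refl A
            time := q + Polynomial.X + 2
            outputsFun := fun p => ?_ }, fun k => ?_⟩
  · refine { steps := τ p, evals_in_steps := ?_, steps_le_m := hτ p }
    have key : ∀ l₁ l₂ : List A, l₁ = List.replicate p.1 u ++ List.replicate p.2 v → l₂ = f p →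
        Run (machine u r L) (τ p) (initList (machine u r L) l₁)
          (haltList (machine u r L) l₂) := by
      rintro _ _ rfl rfl
      exact hR p
    exact key _ _ (List.map_id _) (List.map_id _)
  · show Finite A
    infer_instance

/-- printed strings are computable in polynomial time from `1^n 0^s` -/
theorem Prn.computable (u v : A) (huv : u ≠ v) {S : (Fin 2 → ℕ) → List A} (hS : Prn A S)
    (f : ℕ × ℕ → List A) (hf : ∀ n s, f (n, s) = S ![n, s]) :
    ∃ M : TM2ComputableInPolyTime
      (fun p : ℕ × ℕ => List.replicate p.1 u ++ List.replicate p.2 v) id f,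
      ∀ k, Finite (M.tm.Γ k) := by
  obtain ⟨p, hp⟩ := hS
  obtain ⟨P, hP⟩ := hp ![0, 1] 2 (by intro j; fin_cases j <;> simp)
  refine computable_of_big u v huv (.seq P (.seq (.loop 0 .skip) (.loop 1 .skip))) f
    (p + (2 * Polynomial.X + 1 + (2 * Polynomial.X + 1))) fun n s => ?_
  obtain ⟨t, ht, h1⟩ := hP (ini n s) [] (fun r hr => by
    simp only [ini]; rw [if_neg (by omega), if_neg (by omega)])
  have e1 : (fun j => ini n s ((![0, 1] : Fin 2 → ℕ) j)) = ![n, s] := by
    funext j
    fin_cases j <;> simp [ini]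
  have e2 : ∑ j, ini n s ((![0, 1] : Fin 2 → ℕ) j) = n + s := by
    simp [Fin.sum_univ_two, ini]
  rw [e2] at ht
  rw [e1, ← hf, List.append_nil] at h1
  have h2 := big_clear (A := A) 0 (ini n s) (f (n, s))
  have h3 := big_clear (A := A) 1 (update (ini n s) 0 0) (f (n, s))
  have e3 : update (update (ini n s) 0 0) 1 0 = fun _ => 0 := by
    funext j
    simp only [update_apply, ini]
    split_ifs <;> rfl
  rw [e3] at h3
  refine ⟨_, ?_, Big.seq h1 (Big.seq h2 h3)⟩
  have e4 : ini n s 0 = n := rfl
  have e5 : update (ini n s) 0 0 1 = s := rfl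
  simp only [Polynomial.eval_add, Polynomial.eval_mul, Polynomial.eval_X, Polynomial.eval_ofNat,
    Polynomial.eval_one, e4, e5]
  omega

end machine

/-! ### Segments -/

/-- the string of a segment: for `j = 0, …, T (n, s) - 1` and for every block `(e, w)` of `B` in
order, the word `w` is printed `e (j, n, s)` times -/
def segStr (T : (Fin 2 → ℕ) → ℕ) (B : List (((Fin 3 → ℕ) → ℕ) × List A)) (n s : ℕ) : List A :=
  (List.range (T ![n, s])).flatMap fun j =>
    B.flatMap fun ew => (List.replicate (ew.1 ![j, n, s]) ew.2).flatten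

/-- the string of a list of segments -/
def printStr (L : List (((Fin 2 → ℕ) → ℕ) × List (((Fin 3 → ℕ) → ℕ) × List A)))
    (n s : ℕ) : List A :=
  L.flatMap fun TB => segStr TB.1 TB.2 n s

/-- strings given by segments are computable in polynomial time from `1^n 0^s`; all stack
alphabets of the machine are finite -/
theorem print_computable [Fintype A] [DecidableEq A] (u v : A) (huv : u ≠ v)
    (L : List (((Fin 2 → ℕ) → ℕ) × List (((Fin 3 → ℕ) → ℕ) × List A)))
    (hL : ∀ TB ∈ L, Comp A TB.1 ∧ ∀ ew ∈ TB.2, Comp A ew.1)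
    (f : ℕ × ℕ → List A) (hf : ∀ n s, f (n, s) = printStr L n s) :
    ∃ M : TM2ComputableInPolyTime
      (fun p : ℕ × ℕ => List.replicate p.1 u ++ List.replicate p.2 v) id f,
      ∀ k, Finite (M.tm.Γ k) := by
  have hS : Prn A (fun x : Fin 2 → ℕ => L.flatMap fun TB =>
      (List.range (TB.1 x)).flatMap fun j =>
        (fun y : Fin 3 → ℕ => TB.2.flatMap fun ew => (List.replicate (ew.1 y) ew.2).flatten)
          (Fin.cons j x)) :=
    Prn.listFlatMap L fun TB hTB => Prn.flatMap (hL TB hTB).1
      (Prn.listFlatMap TB.2 fun ew hew => Prn.rep ((hL TB hTB).2 ew hew) ew.2)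
  refine Prn.computable u v huv hS f fun n s => ?_
  rw [hf]
  rfl

end PolyTM
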